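import Vale.Agent.P274.Full.Defs
import Mathlib.Algebra.MvPolynomial.Equiv
import Mathlib.Algebra.MvPolynomial.NoZeroDivisors
import Mathlib.FieldTheory.PrimitiveElement
import Mathlib.FieldTheory.Minpoly.IsIntegrallyClosed
import Mathlib.FieldTheory.Separable
import Mathlib.LinearAlgebra.Lagrange
import Mathlib.RingTheory.AlgebraicIndependent.TranscendenceBasis
import Mathlib.RingTheory.Localization.Integral
import Mathlib.RingTheory.NoetherNormalization
import Mathlib.RingTheory.Polynomial.RationalRoot
import Mathlib.RingTheory.Polynomial.UniqueFactorization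

/-!
Noether projections and primitive sheets of prime ideals of polynomials.
-/

namespace Vale.Agent.P274.Full.Alg

open Set

noncomputable section

/-- Complex polynomials in `N` variables. -/
abbrev Pol (N : ℕ) : Type := MvPolynomial (Fin N) ℂ

/-- Evaluation at a point. -/
def ev {N : ℕ} (z : Cn N) : Pol N →+* ℂ := MvPolynomial.eval fun i => z i

/-- The zero set of an ideal. -/
def vz {N : ℕ} (p : Ideal (Pol N)) : Set (Cn N) := {z | ∀ f ∈ p, ev z f = 0}

/-- Substitution of `x` for the variables. -/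
def ι {N s : ℕ} (x : Fin s → Pol N) : Pol s →+* Pol N := (MvPolynomial.aeval x).toRingHom

/-- A finite injective projection of the zero set of `p`. -/
structure Proj {N : ℕ} (p : Ideal (Pol N)) (s : ℕ) where
  x : Fin s → Pol N
  inj : ∀ G : Pol s, ι x G ∈ p → G = 0
  integral : ∀ f : Pol N, ∃ Q : Polynomial (Pol s), Q.Monic ∧ Q.eval₂ (ι x) f ∈ p

variable {N s : ℕ} {p : Ideal (Pol N)}

/-- The projection. -/
def Proj.X (c : Proj p s) (z : Cn N) : Cn s := WithLp.toLp 2 fun j => ev z (c.x j)

lemma Proj.ev_ι (c : Proj p s) (z : Cn N) (G : Pol s) : ev z (ι c.x G) = ev (c.X z) G := by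
  have : (ev z).comp (ι c.x) = ev (c.X z) :=
    MvPolynomial.ringHom_ext (fun a => by simp [ev, ι]) fun j => by simp [ev, ι, Proj.X]
  exact RingHom.congr_fun this G

lemma Proj.ev_eval₂ (c : Proj p s) (z : Cn N) (Q : Polynomial (Pol s)) (f : Pol N) :
    ev z (Q.eval₂ (ι c.x) f) = (Q.map (ev (c.X z))).eval (ev z f) := by
  rw [Polynomial.hom_eval₂, Polynomial.eval_map]
  congr 1
  exact RingHom.ext (c.ev_ι z)

theorem exists_proj (p : Ideal (Pol N)) [hp : p.IsPrime] : ∃ s, Nonempty (Proj p s) := by
  have : Nontrivial (Pol N ⧸ p) := Ideal.Quotient.nontrivial_iff.2 hp.ne_top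
  obtain ⟨s, g, hg, hint⟩ := exists_integral_inj_algHom_of_fg ℂ (Pol N ⧸ p)
  choose x hx using fun j => Ideal.Quotient.mk_surjective (g (MvPolynomial.X j))
  have he : ∀ G, Ideal.Quotient.mk p (ι x G) = g G := fun G => by
    have : (Ideal.Quotient.mkₐ ℂ p).comp (MvPolynomial.aeval x) = g :=
      MvPolynomial.algHom_ext fun j => by simp [hx]
    exact AlgHom.congr_fun this G
  refine ⟨s, ⟨⟨x, fun G hG => hg ?_, fun f => ?_⟩⟩⟩
  · rw [map_zero, ← he, Ideal.Quotient.eq_zero_iff_mem.2 hG]
  · obtain ⟨Q, hQ, h⟩ := hint (Ideal.Quotient.mk p f)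
    refine ⟨Q, hQ, Ideal.Quotient.eq_zero_iff_mem.1 ?_⟩
    rw [Polynomial.hom_eval₂]
    exact (Polynomial.eval₂_congr (RingHom.ext he) rfl rfl).trans h

/-- Any `m > s` elements are algebraically dependent modulo `p`. -/
theorem Proj.dep [hp : p.IsPrime] (c : Proj p s) {m : ℕ} (y : Fin m → Pol N) (h : s < m) :
    ∃ G : Pol m, G ≠ 0 ∧ MvPolynomial.aeval y G ∈ p := by
  by_contra hc
  push Not at hc
  let q := Ideal.Quotient.mkₐ ℂ p
  let x' : Fin s → Pol N ⧸ p := fun j => q (c.x j)
  have hy : AlgebraicIndependent ℂ fun i => q (y i) := by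
    rw [algebraicIndependent_iff]
    intro G hG
    by_contra h0
    refine hc G h0 (Ideal.Quotient.eq_zero_iff_mem.1 ?_)
    rw [← hG, ← MvPolynomial.comp_aeval_apply]
    rfl
  let B := Algebra.adjoin ℂ (range x')
  let e : Pol s →ₐ[ℂ] B := MvPolynomial.aeval fun j => ⟨x' j, Algebra.subset_adjoin ⟨j, rfl⟩⟩
  have he : ((algebraMap B (Pol N ⧸ p)).comp e.toRingHom) = q.toRingHom.comp (ι c.x) :=
    MvPolynomial.ringHom_ext (fun a => by simp [e, ι, q]; rfl) fun j => by simp [e, ι, q, x']
  have : Algebra.IsAlgebraic B (Pol N ⧸ p) := by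
    have : Algebra.IsIntegral B (Pol N ⧸ p) := ⟨fun a => by
      obtain ⟨f, rfl⟩ := Ideal.Quotient.mk_surjective a
      obtain ⟨Q, hQ, hQf⟩ := c.integral f
      refine ⟨Q.map e.toRingHom, hQ.map _, ?_⟩
      rw [Polynomial.eval₂_map, he]
      rw [← Ideal.Quotient.eq_zero_iff_mem, Polynomial.hom_eval₂] at hQf
      exact hQf⟩
    infer_instance
  have h1 := hy.cardinalMk_le_trdeg.trans (Algebra.IsAlgebraic.trdeg_le_cardinalMk ℂ (range x'))
  have h2 := h1.trans Cardinal.mk_range_le
  simp only [Cardinal.mk_fintype, Fintype.card_fin, Nat.cast_le] at h2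
  omega

/-- A relation of `f ∉ p` may be assumed to have a nonzero constant term. -/
theorem strip [hp : p.IsPrime] {S : Type*} [CommRing S] (φ : S →+* Pol N) {f : Pol N}
    (hf : f ∉ p) {Q : Polynomial S} (hQ : Q ≠ 0) (h : Q.eval₂ φ f ∈ p) :
    ∃ Q' : Polynomial S, Q'.coeff 0 ≠ 0 ∧ Q'.eval₂ φ f ∈ p := by
  classical
  induction hd : Q.natDegree using Nat.strong_induction_on generalizing Q with
  | _ n ih =>
    subst hd
    by_cases h0 : Q.coeff 0 = 0
    · have hQ' : Q = Q.divX * Polynomial.X := by
        conv_lhs => rw [← Q.divX_mul_X_add, h0, map_zero, add_zero]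
      have hne : Q.divX ≠ 0 := fun hz => hQ (by rw [hQ', hz, zero_mul])
      have hmem : Q.divX.eval₂ φ f ∈ p := by
        rw [hQ', Polynomial.eval₂_mul_X] at h
        exact (hp.mem_or_mem h).resolve_right hf
      refine ih _ ?_ hne hmem rfl
      rw [Polynomial.natDegree_divX_eq_natDegree_tsub_one]
      have : 0 < Q.natDegree := by
        refine Nat.pos_of_ne_zero fun hz => hQ ?_
        rw [Polynomial.eq_C_of_natDegree_eq_zero hz, h0, map_zero]
      omega
    · exact ⟨Q, h0, h⟩

/-- A polynomial in the projection vanishing where `f` does. -/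
theorem Proj.const [hp : p.IsPrime] (c : Proj p s) {f : Pol N} (hf : f ∉ p) :
    ∃ G : Pol s, G ≠ 0 ∧ ∀ z ∈ vz p, ev z f = 0 → ev (c.X z) G = 0 := by
  obtain ⟨Q, hQ, hQf⟩ := c.integral f
  obtain ⟨Q', h0, h⟩ := strip (ι c.x) hf hQ.ne_zero hQf
  refine ⟨_, h0, fun z hz hfz => ?_⟩
  have := hz _ h
  rw [c.ev_eval₂, hfz, ← Polynomial.coeff_zero_eq_eval_zero, Polynomial.coeff_map] at this
  exact this

/-- `n ≥ s` coordinates satisfy a nonzero relation on the zeros of `f ∉ p`. -/
theorem Proj.dep_zero [hp : p.IsPrime] (c : Proj p s) {n : ℕ} (y : Fin n → Pol N) (h : s ≤ n)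
    {f : Pol N} (hf : f ∉ p) :
    ∃ G : Pol n, G ≠ 0 ∧ ∀ z ∈ vz p, ev z f = 0 →
      ev (WithLp.toLp 2 fun i => ev z (y i)) G = 0 := by
  obtain ⟨G, hG, hGp⟩ := c.dep (Fin.cons f y) (Nat.lt_succ_of_le h)
  have key : MvPolynomial.aeval (Fin.cons f y : Fin (n + 1) → Pol N) G =
      (MvPolynomial.finSuccEquiv ℂ n G).eval₂ (MvPolynomial.aeval y).toRingHom f := by
    have : (MvPolynomial.aeval (Fin.cons f y : Fin (n + 1) → Pol N)).toRingHom =
        (Polynomial.eval₂RingHom (MvPolynomial.aeval y).toRingHom f).comp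
          (MvPolynomial.finSuccEquiv ℂ n).toRingEquiv.toRingHom := by
      refine MvPolynomial.ringHom_ext (fun a => ?_) (fun j => ?_)
      · simp [MvPolynomial.finSuccEquiv_apply]
      · induction j using Fin.cases with
        | zero => simp [MvPolynomial.finSuccEquiv_X_zero]
        | succ i => simp [MvPolynomial.finSuccEquiv_X_succ]
    exact RingHom.congr_fun this G
  rw [key] at hGp
  obtain ⟨Q', h0, hQ'⟩ := strip _ hf (by simpa using hG) hGp
  refine ⟨_, h0, fun z hz hfz => ?_⟩
  have := hz _ hQ'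
  rw [Polynomial.hom_eval₂, hfz, ← Polynomial.eval_map, ← Polynomial.coeff_zero_eq_eval_zero,
    Polynomial.coeff_map] at this
  have he : (ev z).comp (MvPolynomial.aeval y).toRingHom =
      ev (WithLp.toLp 2 fun i => ev z (y i)) :=
    MvPolynomial.ringHom_ext (fun a => by simp [ev]) fun j => by simp [ev]
  rwa [he] at this

lemma clear {S : Type*} (K : Type*) [CommRing S] [IsDomain S] [Field K] [Algebra S K]
    [IsFractionRing S K] (q : Polynomial K) :
    ∃ d : S, d ≠ 0 ∧ ∃ Q : Polynomial S,
      Q.map (algebraMap S K) = Polynomial.C (algebraMap S K d) * q := by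
  obtain ⟨b, hb, h⟩ := IsLocalization.integerNormalization_spec (nonZeroDivisors S) q
  exact ⟨b, nonZeroDivisors.ne_zero hb, _, by
    rw [h, ← algebraMap_smul K b q, Polynomial.smul_eq_C_mul]⟩

/-- A primitive element with its equation; off `d = 0` it parametrises the zero set of `p`. -/
structure Sheet (c : Proj p s) where
  θ : Pol N
  μ : Polynomial (Pol s)
  monic : μ.Monic
  d : Pol s
  d_ne : d ≠ 0
  G : Fin N → Polynomial (Pol s)
  root : μ.eval₂ (ι c.x) θ ∈ p
  solve : ∀ i, ι c.x d * MvPolynomial.X i - (G i).eval₂ (ι c.x) θ ∈ p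
  simple : ∀ (u : Cn s) (r : ℂ), ev u d ≠ 0 → (μ.map (ev u)).eval r = 0 →
    (μ.derivative.map (ev u)).eval r ≠ 0
  point : ∀ (u : Cn s) (r : ℂ), ev u d ≠ 0 → (μ.map (ev u)).eval r = 0 →
    ∃ z ∈ vz p, c.X z = u ∧ ev z θ = r

theorem exists_sheet [hp : p.IsPrime] (c : Proj p s) (F : Finset (Cn N)) :
    ∃ σ : Sheet c, InjOn (fun z => ev z σ.θ) (F : Set (Cn N)) := by
  classical
  let L := FractionRing (Pol N ⧸ p)
  let π : Pol N →+* L := (algebraMap (Pol N ⧸ p) L).comp (Ideal.Quotient.mk p)
  have hπ : ∀ f, π f = 0 ↔ f ∈ p := fun f => by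
    simp [π, Ideal.Quotient.eq_zero_iff_mem,
      map_eq_zero_iff _ (IsFractionRing.injective (Pol N ⧸ p) L)]
  let _ : Algebra (Pol s) L := (π.comp (ι c.x)).toAlgebra
  have hinj : Function.Injective (algebraMap (Pol s) L) := by
    rw [injective_iff_map_eq_zero]
    exact fun G hG => c.inj G ((hπ _).1 hG)
  have : FaithfulSMul (Pol s) L := (faithfulSMul_iff_algebraMap_injective _ _).2 hinj
  let K := FractionRing (Pol s)
  let _ : Algebra K L := FractionRing.liftAlgebra (Pol s) L
  have : CharZero K := charZero_of_injective_ringHom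
    ((algebraMap (Pol s) K).comp MvPolynomial.C).injective
  have haev : ∀ (Q : Polynomial (Pol s)) (f : Pol N),
      Polynomial.aeval (π f) Q = π (Q.eval₂ (ι c.x) f) := fun Q f => by
    rw [Polynomial.hom_eval₂]; rfl
  have hint : ∀ f, IsIntegral (Pol s) (π f) := fun f => by
    obtain ⟨Q, hQ, hQf⟩ := c.integral f
    exact ⟨Q, hQ, (haev Q f).trans ((hπ _).2 hQf)⟩
  -- the extension is finite, generated by the coordinates
  have hgen : ∀ E : IntermediateField K L, (∀ i, π (MvPolynomial.X i) ∈ E) → E = ⊤ := by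
    intro E hE
    have hall : ∀ f, π f ∈ E := fun f => by
      induction f using MvPolynomial.induction_on with
      | C a =>
        have : π (MvPolynomial.C a) = algebraMap K L (algebraMap (Pol s) K (MvPolynomial.C a)) := by
          rw [← IsScalarTower.algebraMap_apply]
          change _ = π (ι c.x (MvPolynomial.C a))
          simp [ι]
        rw [this]
        exact E.algebraMap_mem _
      | add f g hf hg => rw [map_add]; exact add_mem hf hg
      | mul_X f i hf => rw [map_mul]; exact mul_mem hf (hE i)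
    refine eq_top_iff.2 fun a _ => ?_
    obtain ⟨x, y, -, rfl⟩ := IsFractionRing.div_surjective (A := Pol N ⧸ p) a
    obtain ⟨f, rfl⟩ := Ideal.Quotient.mk_surjective x
    obtain ⟨g, rfl⟩ := Ideal.Quotient.mk_surjective y
    exact div_mem (hall f) (hall g)
  have : FiniteDimensional K L := by
    have h := IntermediateField.finiteDimensional_adjoin
      (S := range fun i => π (MvPolynomial.X i)) (K := K)
      (by rintro _ ⟨i, rfl⟩; exact (hint _).tower_top)
    rw [hgen _ fun i => IntermediateField.subset_adjoin K (range fun i => π (MvPolynomial.X i))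
      (mem_range_self i)] at h
    exact IntermediateField.topEquiv.toLinearEquiv.finiteDimensional
  have : Finite (IntermediateField K L) :=
    Field.finite_intermediateField_of_exists_primitive_element K L
      (Field.exists_primitive_element K L)
  -- a linear form which is primitive and separates `F`
  let θ : ℂ → Pol N := fun t => ∑ i : Fin N, MvPolynomial.C (t ^ (i : ℕ)) * MvPolynomial.X i
  have hτ : Function.Injective fun t : ℂ => π (MvPolynomial.C t) :=
    (π.comp MvPolynomial.C).injective
  have hbad : ∀ E : IntermediateField K L, E ≠ ⊤ → {t | π (θ t) ∈ E}.Finite := by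
    intro E hE
    by_contra hinf
    refine hE (hgen E fun i => ?_)
    obtain ⟨T, hT, hcard⟩ := (Set.not_finite.1 hinf).exists_subset_card_eq N
    have hC : ∀ t, π (MvPolynomial.C t) ∈ E := fun t => by
      have : π (MvPolynomial.C t) = algebraMap K L (algebraMap (Pol s) K (MvPolynomial.C t)) := by
        rw [← IsScalarTower.algebraMap_apply]
        change _ = π (ι c.x (MvPolynomial.C t))
        simp [ι]
      rw [this]
      exact E.algebraMap_mem _
    let v : ℂ → E := fun t => ⟨_, hC t⟩
    let r : ℂ → E := fun t => if ht : π (θ t) ∈ E then ⟨_, ht⟩ else 0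
    have hv : Set.InjOn v T := fun a _ b _ h => hτ (Subtype.ext_iff.1 h)
    let P : Polynomial L :=
      ∑ j : Fin N, Polynomial.C (π (MvPolynomial.X j)) * Polynomial.X ^ (j : ℕ)
    have hP : P = (Lagrange.interpolate T v r).map (algebraMap E L) := by
      refine Polynomial.eq_of_degrees_lt_of_eval_index_eq (v := fun t => π (MvPolynomial.C t)) T
        (fun a _ b _ h => hτ h) ?_ ?_ ?_
      · rw [hcard]
        refine (Polynomial.degree_sum_le _ _).trans_lt ((Finset.sup_lt_iff ?_).2 fun j _ => ?_)
        · exact WithBot.bot_lt_coe N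
        · exact (Polynomial.degree_C_mul_X_pow_le _ _).trans_lt (Nat.cast_lt.2 j.isLt)
      · exact (Polynomial.degree_map_le).trans_lt (Lagrange.degree_interpolate_lt r hv)
      · intro t ht
        change P.eval (algebraMap E L (v t)) = _
        rw [show π (MvPolynomial.C t) = algebraMap E L (v t) from rfl,
          Polynomial.eval_map_algebraMap, Polynomial.aeval_algebraMap_apply_eq_algebraMap_eval,
          Lagrange.eval_interpolate_at_node r hv ht]
        have hr : r t = ⟨π (θ t), hT ht⟩ := dif_pos (hT ht)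
        rw [hr]
        change P.eval (π (MvPolynomial.C t)) = π (θ t)
        simp only [P, θ, Polynomial.eval_finsetSum, Polynomial.eval_mul, Polynomial.eval_C,
          Polynomial.eval_pow, Polynomial.eval_X, map_sum, map_mul, map_pow]
        exact Finset.sum_congr rfl fun j _ => mul_comm _ _
    have : π (MvPolynomial.X i) = P.coeff i := by
      simp [P, Polynomial.coeff_X_pow, Fin.val_inj]
    rw [this, hP, Polynomial.coeff_map]
    exact SetLike.coe_mem _
  have hsep : ∀ a b : Cn N, a ≠ b → {t | ev a (θ t) = ev b (θ t)}.Finite := by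
    intro a b hab
    let P : Polynomial ℂ := ∑ j : Fin N, Polynomial.C (a j - b j) * Polynomial.X ^ (j : ℕ)
    have hP : P ≠ 0 := by
      intro h
      refine hab (PiLp.ext fun j => sub_eq_zero.1 ?_)
      have := congrArg (fun q : Polynomial ℂ => q.coeff j) h
      simpa [P, Polynomial.finsetSum_coeff, Polynomial.coeff_C_mul_X_pow, -map_sub, Fin.val_inj]
        using this
    refine (Polynomial.finite_setOfPred_isRoot hP).subset fun t ht => ?_
    simp only [mem_ofPred_eq, θ, ev, map_sum, map_mul, MvPolynomial.eval_C,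
      MvPolynomial.eval_X] at ht
    simp only [P, mem_ofPred_eq, Polynomial.IsRoot.def, Polynomial.eval_finsetSum,
      Polynomial.eval_mul, Polynomial.eval_C, Polynomial.eval_pow, Polynomial.eval_X, sub_mul,
      Finset.sum_sub_distrib, sub_eq_zero]
    simpa [mul_comm] using ht
  have hfin : ((⋃ E ∈ {E : IntermediateField K L | E ≠ ⊤}, {t | π (θ t) ∈ E}) ∪
      ⋃ a ∈ (F : Set (Cn N)), ⋃ b ∈ {b | b ∈ F ∧ a ≠ b}, {t | ev a (θ t) = ev b (θ t)}).Finite :=
    (Set.Finite.biUnion (Set.toFinite _) fun E hE => hbad E hE).union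
      (Set.Finite.biUnion F.finite_toSet fun a _ =>
        Set.Finite.biUnion (F.finite_toSet.subset fun b hb => hb.1) fun b hb => hsep a b hb.2)
  obtain ⟨t, ht⟩ := hfin.exists_notMem
  simp only [mem_union, mem_iUnion, mem_ofPred_eq, not_or, not_exists] at ht
  set y := π (θ t) with hy
  have htop : IntermediateField.adjoin K ({y} : Set L) = ⊤ := by
    by_contra h
    exact ht.1 _ h (IntermediateField.mem_adjoin_simple_self K y)
  have hyK : IsIntegral K y := (hint _).tower_top
  -- its equation over the polynomial ring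
  set μ := minpoly (Pol s) y with hμdef
  have hμK : minpoly K y = μ.map (algebraMap (Pol s) K) :=
    minpoly.isIntegrallyClosed_eq_field_fractions' K (hint _)
  have hdvd : ∀ Q : Polynomial (Pol s), Q.eval₂ (ι c.x) (θ t) ∈ p → μ ∣ Q := fun Q hQ =>
    minpoly.isIntegrallyClosed_dvd (hint _) ((haev Q _).trans ((hπ _).2 hQ))
  obtain ⟨α, β, hαβ⟩ : IsCoprime (minpoly K y) (minpoly K y).derivative :=
    Algebra.IsSeparable.isSeparable K y
  obtain ⟨a, ha, A, hA⟩ := clear (S := Pol s) K α
  obtain ⟨b, hb, B, hB⟩ := clear (S := Pol s) K β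
  have hbez : Polynomial.C b * A * μ + Polynomial.C a * B * μ.derivative =
      Polynomial.C (a * b) := by
    apply Polynomial.map_injective _ (IsFractionRing.injective (Pol s) K)
    simp only [Polynomial.map_add, Polynomial.map_mul, Polynomial.map_C, hA, hB, map_mul,
      ← Polynomial.derivative_map, ← hμK]
    linear_combination
      (Polynomial.C (algebraMap (Pol s) K a) * Polynomial.C (algebraMap (Pol s) K b)) * hαβ
  have hsol : ∀ i, ∃ e : Pol s, e ≠ 0 ∧ ∃ G : Polynomial (Pol s),
      ι c.x e * MvPolynomial.X i - G.eval₂ (ι c.x) (θ t) ∈ p := by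
    intro i
    have hmem : π (MvPolynomial.X i) ∈ Algebra.adjoin K ({y} : Set L) := by
      rw [← IntermediateField.adjoin_simple_toSubalgebra_of_isAlgebraic hyK.isAlgebraic, htop]
      exact IntermediateField.mem_top
    rw [Algebra.adjoin_singleton_eq_range_aeval] at hmem
    obtain ⟨q, hq⟩ := hmem
    obtain ⟨e, he, G, hG⟩ := clear (S := Pol s) K q
    refine ⟨e, he, G, (hπ _).1 ?_⟩
    change Polynomial.aeval y q = _ at hq
    rw [map_sub, map_mul, ← haev, ← Polynomial.aeval_map_algebraMap K, hG, map_mul,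
      Polynomial.aeval_C, hq, ← IsScalarTower.algebraMap_apply, sub_eq_zero]
    rfl
  choose e he G hG using hsol
  set d := a * b * ∏ i, e i with hd
  have hroot : μ.eval₂ (ι c.x) (θ t) ∈ p := (hπ _).1 ((haev _ _).symm.trans (minpoly.aeval _ _))
  let G' : Fin N → Polynomial (Pol s) := fun i =>
    Polynomial.C (a * b * ∏ j ∈ Finset.univ.erase i, e j) * G i
  have hG' : ∀ i, ι c.x d * MvPolynomial.X i - (G' i).eval₂ (ι c.x) (θ t) ∈ p := by
    intro i
    have hprod : d = (a * b * ∏ j ∈ Finset.univ.erase i, e j) * e i := by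
      rw [hd, ← Finset.mul_prod_erase _ _ (Finset.mem_univ i)]; ring
    rw [hprod, Polynomial.eval₂_mul, Polynomial.eval₂_C, map_mul, mul_assoc, ← mul_sub]
    exact p.mul_mem_left _ (hG i)
  refine ⟨⟨θ t, μ, minpoly.monic (hint _), d,
    mul_ne_zero (mul_ne_zero ha hb) (Finset.prod_ne_zero_iff.2 fun i _ => he i), G', hroot, hG',
    ?_, ?_⟩, ?_⟩
  · intro u r hdu hr h'
    have := congrArg (fun q : Polynomial (Pol s) => (q.map (ev u)).eval r) hbez
    simp only [Polynomial.map_add, Polynomial.map_mul, Polynomial.map_C, Polynomial.eval_add,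
      Polynomial.eval_mul, Polynomial.eval_C, hr, h', mul_zero, add_zero] at this
    refine hdu ?_
    rw [hd, map_mul, ← this, zero_mul]
  · intro u r hdu hr
    let z : Cn N := WithLp.toLp 2 fun i => ((G' i).map (ev u)).eval r / ev u d
    let E : Polynomial (Pol s) → ℂ := fun Q => (Q.map (ev u)).eval r
    have hzero : ∀ Q : Polynomial (Pol s), Q.eval₂ (ι c.x) (θ t) ∈ p → E Q = 0 := fun Q hQ => by
      obtain ⟨R, rfl⟩ := hdvd Q hQ
      simp [E, hr]
    have rep : ∀ f, ∃ (n : ℕ) (Q : Polynomial (Pol s)),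
        ι c.x d ^ n * f - Q.eval₂ (ι c.x) (θ t) ∈ p ∧ ev u d ^ n * ev z f = E Q := by
      intro f
      induction f using MvPolynomial.induction_on with
      | C a => exact ⟨0, Polynomial.C (MvPolynomial.C a), by simp [ι], by simp [E, ev]⟩
      | add f g hf hg =>
        obtain ⟨n, Q, h1, h2⟩ := hf
        obtain ⟨n', Q', h1', h2'⟩ := hg
        refine ⟨n + n', Polynomial.C (d ^ n') * Q + Polynomial.C (d ^ n) * Q', ?_, ?_⟩
        · have := p.add_mem (p.mul_mem_left (ι c.x d ^ n') h1) (p.mul_mem_left (ι c.x d ^ n) h1')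
          convert this using 1
          simp [pow_add, Polynomial.eval₂_pow]
          ring
        · simp only [E, Polynomial.map_add, Polynomial.map_mul, Polynomial.map_C,
            Polynomial.eval_add, Polynomial.eval_mul, Polynomial.eval_C, Polynomial.map_pow,
            Polynomial.eval_pow, map_pow, map_add] at h2 h2' ⊢
          rw [← h2, ← h2', pow_add]; ring
      | mul_X f i hf =>
        obtain ⟨n, Q, h1, h2⟩ := hf
        refine ⟨n + 1, Q * G' i, ?_, ?_⟩
        · have := p.add_mem (p.mul_mem_right (ι c.x d * MvPolynomial.X i) h1)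
            (p.mul_mem_left (Q.eval₂ (ι c.x) (θ t)) (hG' i))
          convert this using 1
          simp [pow_succ]
          ring
        · simp only [E, Polynomial.map_mul, Polynomial.eval_mul] at h2 ⊢
          rw [← h2, (ev z).map_mul f, show ev z (MvPolynomial.X i) =
            ((G' i).map (ev u)).eval r / ev u d by simp [ev, z], pow_succ]
          field_simp
    have key : ∀ f (P : Polynomial (Pol s)), f - P.eval₂ (ι c.x) (θ t) ∈ p → ev z f = E P := by
      intro f P hfP
      obtain ⟨n, Q, h1, h2⟩ := rep f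
      have h3 := hzero (Polynomial.C (d ^ n) * P - Q) (by
        convert p.sub_mem h1 (p.mul_mem_left (ι c.x d ^ n) hfP) using 1
        simp [Polynomial.eval₂_sub, Polynomial.eval₂_pow]
        ring)
      simp only [E, Polynomial.map_sub, Polynomial.map_mul, Polynomial.map_C, Polynomial.eval_sub,
        Polynomial.eval_mul, Polynomial.eval_C, Polynomial.map_pow, Polynomial.eval_pow, map_pow,
        sub_eq_zero] at h2 h3 ⊢
      exact mul_left_cancel₀ (pow_ne_zero n hdu) (h2.trans h3.symm)
    refine ⟨z, fun f hf => ?_, PiLp.ext fun j => ?_, ?_⟩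
    · simpa [E] using key f 0 (by simpa using hf)
    · change ev z (c.x j) = u j
      simpa [E, ev] using key (c.x j) (Polynomial.C (MvPolynomial.X j)) (by simp [ι])
    · simpa [E] using key (θ t) Polynomial.X (by simp)
  · intro a ha b hb h
    by_contra hne
    exact ht.2 a ha b ⟨hb, hne⟩ h

end

end Vale.Agent.P274.Full.Alg
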