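import Vale.Agent.P274.Full.Alg.Zeros
import Mathlib.Analysis.Complex.RemovableSingularity
import Mathlib.Analysis.Complex.Schwarz

/-!
Equicontinuity of bounded holomorphic functions on the zero set of a prime ideal.
-/

open Filter Metric Set Function Topology

namespace Vale.Agent.P274.Full.Alg

noncomputable section

variable {N s : ℕ} {p : Ideal (Pol N)} {c : Proj p s}

theorem HolOn.continuousWithinAt {E F : Type*} [NormedAddCommGroup E] [NormedSpace ℂ E]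
    [NormedAddCommGroup F] [NormedSpace ℂ F] {f : E → F} {U : Set E} (hf : HolOn f U) {a : E}
    (ha : a ∈ U) : ContinuousWithinAt f U a := by
  obtain ⟨W, g, hW, haW, hg, heq⟩ := hf a ha
  exact ((hg.differentiableAt (hW.mem_nhds haW)).continuousAt.continuousWithinAt).congr_of_eventuallyEq
    (eventually_of_mem (inter_mem_nhdsWithin U (hW.mem_nhds haW))
      fun y hy => heq ⟨hy.2, hy.1⟩) (heq ⟨haW, ha⟩)

/-- Points of `vz p` in a closed ball over a base point near `u₀` lie in any open set containing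
those over `u₀`. -/
theorem near_fibre (c : Proj p s) (a : Cn N) (ρ : ℝ) (u₀ : Cn s) {B : Set (Cn N)} (hB : IsOpen B)
    (hsub : ∀ y ∈ vz p, dist y a ≤ ρ → c.X y = u₀ → y ∈ B) :
    ∀ᶠ u in 𝓝 u₀, ∀ y ∈ vz p, dist y a ≤ ρ → c.X y = u → y ∈ B := by
  have hK : IsCompact ((vz p ∩ closedBall a ρ) \ B) :=
    (((isCompact_closedBall a ρ).inter_left (isClosed_vz p))).diff hB
  filter_upwards [(hK.image c.continuous_X).isClosed.isOpen_compl.mem_nhds
    (fun ⟨y, hy, hXy⟩ => hy.2 (hsub y hy.1.1 hy.1.2 hXy))] with u hu y hy hd hXy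
  exact Classical.not_not.1 fun h => hu ⟨y, ⟨⟨hy, hd⟩, h⟩, hXy⟩

/-- The points over `u` in a ball. -/
def fib (c : Proj p s) (a : Cn N) (ρ : ℝ) (u : Cn s) : Finset (Cn N) :=
  ((c.finite_fibre u).subset (inter_subset_left (t := ball a ρ))).toFinset

theorem mem_fib {a : Cn N} {ρ : ℝ} {u : Cn s} {y : Cn N} :
    y ∈ fib c a ρ u ↔ (y ∈ vz p ∧ c.X y = u) ∧ y ∈ ball a ρ := by
  simp [fib]

theorem card_fib_le (σ : Sheet c) (a : Cn N) (ρ : ℝ) {u : Cn s}
    (hd : ev u σ.d ≠ 0) : (fib c a ρ u).card ≤ σ.μ.natDegree := by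
  classical
  refine le_trans (Finset.card_le_card_of_injOn (fun y => ev y σ.θ)
    (t := (σ.μ.map (ev u)).roots.toFinset) ?_ ?_) ?_
  · intro y hy
    obtain ⟨⟨h1, h2⟩, -⟩ := mem_fib.1 (Finset.mem_coe.1 hy)
    rw [Finset.mem_coe, Multiset.mem_toFinset,
      Polynomial.mem_roots (σ.monic.map _).ne_zero, Polynomial.IsRoot.def, ← h2]
    exact σ.root_eval h1
  · intro y hy y' hy' h
    obtain ⟨⟨h1, h2⟩, -⟩ := mem_fib.1 (Finset.mem_coe.1 hy)
    obtain ⟨⟨h1', h2'⟩, -⟩ := mem_fib.1 (Finset.mem_coe.1 hy')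
    exact σ.ext h1' h1 (by rw [h2']; exact hd) (h2.trans h2'.symm) h
  · exact (Multiset.toFinset_card_le _).trans
      ((Polynomial.card_roots' _).trans (Polynomial.natDegree_map_le))

theorem equicont (σ : Sheet c) {U O : Set (Cn N)} (hO : IsOpen O)
    (hU : vz p ∩ O ⊆ U) {a : Cn N} (ha : a ∈ vz p) (haO : a ∈ O) (M : ℝ) {ε : ℝ} (hε : 0 < ε) :
    ∃ η > 0, ∀ b ∈ vz p, dist b a < η → ev (c.X b) σ.d ≠ 0 → ∀ f : Cn N → ℂ, HolOn f U →
      (∀ z ∈ U, ‖f z‖ ≤ M) → ‖f b - f a‖ ≤ ε := by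
  classical
  have haU : a ∈ U := hU ⟨ha, haO⟩
  set u₀ := c.X a with hu₀
  -- a ball meeting the fibre only at `a`
  obtain ⟨ρ, hρ, hρO⟩ : ∃ ρ > 0, closedBall a ρ ⊆ O ∩ ({z | z ∈ vz p ∧ c.X z = u₀} \ {a})ᶜ :=
    nhds_basis_closedBall.mem_iff.1 ((hO.inter
      (((c.finite_fibre u₀).sdiff).isClosed.isOpen_compl)).mem_nhds ⟨haO, fun h => h.2 rfl⟩)
  have hfib : ∀ y ∈ vz p, dist y a ≤ ρ → c.X y = u₀ → y = a := fun y hy hd hX =>
    Classical.not_not.1 fun h => (hρO (mem_closedBall.2 hd)).2 ⟨⟨hy, hX⟩, h⟩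
  obtain ⟨δ, hδ, hball⟩ := Metric.eventually_nhds_iff.1 (near_fibre c a ρ u₀ isOpen_ball
    (B := ball a ρ) fun y hy hd hX => by rw [hfib y hy hd hX]; exact mem_ball_self hρ)
  set C : ℝ := max 1 (2 * max M 0) ^ σ.μ.natDegree with hC
  have hCpos : 0 < C := by positivity
  set m : ℝ := min 1 (ε / 2) ^ σ.μ.natDegree with hm
  have hmpos : 0 < m := by positivity
  obtain ⟨η, hη, hηX⟩ := Metric.continuousAt_iff.1 (c.continuous_X.continuousAt (x := a))
    (min δ (δ * m / (2 * C + 1))) (by positivity)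
  refine ⟨min η ρ, lt_min hη hρ, fun b hb hbd hdb f hf hfM => ?_⟩
  by_contra hlt
  push Not at hlt
  set w := f b
  have hbU : b ∈ U := hU ⟨hb, (hρO (mem_closedBall.2 (hbd.trans_le (min_le_right _ _)).le)).1⟩
  set t : ℝ := dist (c.X b) u₀ with ht
  have htlt : t < min δ (δ * m / (2 * C + 1)) := hηX (hbd.trans_le (min_le_left _ _))
  have htpos : 0 < t := by
    refine lt_of_le_of_ne dist_nonneg fun h => ?_
    have hbe : b = a := hfib b hb (hbd.trans_le (min_le_right _ _)).le (dist_eq_zero.1 h.symm)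
    simp only [w, hbe, sub_self, norm_zero] at hlt
    linarith
  set v : Cn s := ((t⁻¹ : ℝ) : ℂ) • (c.X b - u₀) with hv
  have hv1 : ‖v‖ = 1 := by
    rw [hv, norm_smul, Complex.norm_real, Real.norm_eq_abs, abs_of_pos (inv_pos.2 htpos),
      ← dist_eq_norm, inv_mul_cancel₀ htpos.ne']
  let L : ℂ → Cn s := fun ζ => u₀ + ζ • v
  have hLt : L (t : ℂ) = c.X b := by
    simp only [L, hv, smul_smul, ← Complex.ofReal_mul, mul_inv_cancel₀ htpos.ne',
      Complex.ofReal_one, one_smul, add_sub_cancel]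
  have hLd : Differentiable ℂ L := (differentiable_id.smul_const v).const_add u₀
  have hLdist : ∀ ζ, dist (L ζ) u₀ = ‖ζ‖ := fun ζ => by
    simp [L, dist_eq_norm, norm_smul, hv1]
  -- the exceptional parameters form a finite set
  let bad : Set ℂ := {ζ | ev (L ζ) σ.d = 0}
  have hbad : bad.Finite := by
    let Q : Polynomial ℂ :=
      MvPolynomial.aeval (fun j => Polynomial.C (u₀ j) + Polynomial.C (v j) * Polynomial.X) σ.d
    have hQ : ∀ ζ, Q.eval ζ = ev (L ζ) σ.d := fun ζ => by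
      have : (Polynomial.evalRingHom ζ).comp (MvPolynomial.aeval fun j =>
          Polynomial.C (u₀ j) + Polynomial.C (v j) * Polynomial.X).toRingHom = ev (L ζ) :=
        MvPolynomial.ringHom_ext (fun r => by simp [ev]) fun j => by
          simp [ev, L]
          ring
      exact RingHom.congr_fun this σ.d
    refine (Polynomial.finite_setOfPred_isRoot (p := Q) fun h => hdb ?_).subset
      fun ζ hζ => (hQ ζ).trans hζ
    rw [← hLt, ← hQ, h, Polynomial.eval_zero]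
  let F : ℂ → ℂ := fun ζ => ∏ z ∈ fib c a ρ (L ζ), (w - f z)
  have hmemU : ∀ {u y}, y ∈ fib c a ρ u → y ∈ U := fun hy =>
    hU ⟨(mem_fib.1 hy).1.1, (hρO (ball_subset_closedBall (mem_fib.1 hy).2)).1⟩
  have hFb : ∀ ζ ∉ bad, ‖F ζ‖ ≤ C := by
    intro ζ hζ
    rw [norm_prod]
    refine ((Finset.prod_le_prod (g := fun _ => max 1 (2 * max M 0)) (fun _ _ => norm_nonneg _)
      fun z hz => ?_).trans_eq (Finset.prod_const _)).trans
      (pow_le_pow_right₀ (le_max_left _ _) (card_fib_le σ a ρ hζ))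
    refine (norm_sub_le _ _).trans ((le_max_right (1 : ℝ) _).trans' ?_)
    linarith [hfM b hbU, hfM z (hmemU hz), le_max_left M 0]
  -- it is holomorphic off the exceptional parameters
  have hFd : ∀ ζ ∈ ball (0 : ℂ) δ \ bad, DifferentiableAt ℂ F ζ := by
    intro ζ₀ hζ₀
    have hu₁ : dist (L ζ₀) u₀ < δ := by rw [hLdist]; simpa using hζ₀.1
    set Φ := fib c a ρ (L ζ₀) with hΦ
    have hsec : ∀ z ∈ Φ, ∃ (ψ : Cn s → Cn N) (V : Set (Cn s)) (B : Set (Cn N)), IsOpen V ∧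
        IsOpen B ∧ c.X z ∈ V ∧ z ∈ B ∧ DifferentiableOn ℂ ψ V ∧ ψ (c.X z) = z ∧
        (∀ u ∈ V, ψ u ∈ vz p ∧ ψ u ∈ B ∧ c.X (ψ u) = u) ∧
        ∀ y ∈ vz p ∩ B, c.X y ∈ V ∧ ψ (c.X y) = y := fun z hz => by
      refine σ.exists_section (mem_fib.1 hz).1.1 ?_
      rw [(mem_fib.1 hz).1.2]; exact hζ₀.2
    choose! ψ V B hVo hBo hXV hzB hψd hψz hψ hBψ using hsec
    have hψat : ∀ z ∈ Φ, DifferentiableAt ℂ (fun ζ => ψ z (L ζ)) ζ₀ ∧ ψ z (L ζ₀) = z := by
      intro z hz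
      have hX := (mem_fib.1 hz).1.2
      refine ⟨DifferentiableAt.comp ζ₀ ((hψd z hz).differentiableAt
        ((hVo z hz).mem_nhds (hX ▸ hXV z hz))) (hLd ζ₀), ?_⟩
      rw [← hX]; exact hψz z hz
    have hev : ∀ᶠ ζ in 𝓝 ζ₀, fib c a ρ (L ζ) = Φ.image (fun z => ψ z (L ζ)) ∧
        Set.InjOn (fun z => ψ z (L ζ)) Φ := by
      have hLc : Tendsto L (𝓝 ζ₀) (𝓝 (L ζ₀)) := hLd.continuous.tendsto ζ₀
      have h1 : ∀ᶠ ζ in 𝓝 ζ₀, ∀ z ∈ Φ, L ζ ∈ V z ∧ ψ z (L ζ) ∈ ball a ρ := by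
        refine (Finset.eventually_all Φ).2 fun z hz => ?_
        have hX := (mem_fib.1 hz).1.2
        refine (hLc.eventually ((hVo z hz).mem_nhds (hX ▸ hXV z hz))).and ?_
        exact ((hψat z hz).1.continuousAt).eventually
          (isOpen_ball.mem_nhds (show ψ z (L ζ₀) ∈ ball a ρ by
            rw [(hψat z hz).2]; exact (mem_fib.1 hz).2))
      have h2 := hLc.eventually (near_fibre c a ρ (L ζ₀) (B := ⋃ z ∈ Φ, B z)
        (isOpen_biUnion fun z hz => hBo z hz) fun y hy hd hX =>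
          mem_iUnion₂.2 ⟨y, mem_fib.2 ⟨⟨hy, hX⟩, hball hu₁ y hy hd hX⟩,
            hzB y (mem_fib.2 ⟨⟨hy, hX⟩, hball hu₁ y hy hd hX⟩)⟩)
      have h3 : ∀ᶠ ζ in 𝓝 ζ₀, ∀ z ∈ Φ, ∀ z' ∈ Φ, z ≠ z' → ψ z (L ζ) ≠ ψ z' (L ζ) := by
        refine (Finset.eventually_all Φ).2 fun z hz => (Finset.eventually_all Φ).2 fun z' hz' => ?_
        by_cases hne : z = z'
        · exact Eventually.of_forall fun _ h => absurd hne h
        have := ((hψat z hz).1.continuousAt.sub (hψat z' hz').1.continuousAt).eventually_ne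
          (show ψ z (L ζ₀) - ψ z' (L ζ₀) ≠ 0 by
            rw [(hψat z hz).2, (hψat z' hz').2, sub_ne_zero]; exact hne)
        exact this.mono fun ζ h _ h' => h (sub_eq_zero.2 h')
      filter_upwards [h1, h2, h3] with ζ h1 h2 h3
      refine ⟨Finset.ext fun y => ?_, fun z hz z' hz' h => Classical.not_not.1 fun hne =>
        h3 z hz z' hz' hne h⟩
      rw [Finset.mem_image, mem_fib]
      constructor
      · rintro ⟨⟨hy, hX⟩, hd⟩
        obtain ⟨z, hz, hyB⟩ := mem_iUnion₂.1 (h2 y hy (le_of_lt (mem_ball.1 hd)) hX)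
        exact ⟨z, hz, by rw [← hX]; exact (hBψ z hz y ⟨hy, hyB⟩).2⟩
      · rintro ⟨z, hz, rfl⟩
        obtain ⟨g1, -, g3⟩ := hψ z hz _ (h1 z hz).1
        exact ⟨⟨g1, g3⟩, (h1 z hz).2⟩
    have heq : F =ᶠ[𝓝 ζ₀] fun ζ => ∏ z ∈ Φ, (w - f (ψ z (L ζ))) := by
      filter_upwards [hev] with ζ hζ
      simp only [F, hζ.1, Finset.prod_image hζ.2]
    refine DifferentiableAt.congr_of_eventuallyEq ?_ heq
    refine DifferentiableAt.fun_finsetProd fun z hz => (differentiableAt_const w).sub ?_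
    obtain ⟨W, g, hW, hzW, hg, hfg⟩ := hf z (hmemU hz)
    have hgψ : DifferentiableAt ℂ (fun ζ => g (ψ z (L ζ))) ζ₀ :=
      DifferentiableAt.comp ζ₀ (hg.differentiableAt (hW.mem_nhds (by
        rw [(hψat z hz).2]; exact hzW))) (hψat z hz).1
    refine hgψ.congr_of_eventuallyEq ?_
    filter_upwards [(hψat z hz).1.continuousAt.preimage_mem_nhds
      (hW.mem_nhds (show ψ z (L ζ₀) ∈ W by rw [(hψat z hz).2]; exact hzW)), hev] with ζ h1 h2
    refine hfg ⟨h1, hmemU (u := L ζ) ?_⟩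
    rw [h2.1]
    exact Finset.mem_image_of_mem _ hz
  -- extend it across the exceptional parameters
  let H : ℂ → ℂ := fun ζ => limUnder (𝓝[≠] ζ) F
  have hHF : ∀ ζ ∈ ball (0 : ℂ) δ \ bad, H ζ = F ζ := fun ζ hζ =>
    ((hFd ζ hζ).continuousAt.continuousWithinAt.tendsto).limUnder_eq
  have hlim : ∀ ζ₀ ∈ ball (0 : ℂ) δ, DifferentiableAt ℂ H ζ₀ ∧
      Tendsto F (𝓝[≠] ζ₀) (𝓝 (H ζ₀)) := by
    intro ζ₀ hζ₀
    have hS : ball (0 : ℂ) δ ∩ (bad \ {ζ₀})ᶜ ∈ 𝓝 ζ₀ :=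
      inter_mem (isOpen_ball.mem_nhds hζ₀) ((hbad.sdiff).isClosed.isOpen_compl.mem_nhds
        fun h => h.2 rfl)
    obtain ⟨r, hr, hrS⟩ := Metric.mem_nhds_iff.1 hS
    have hgood : ∀ y ∈ ball ζ₀ r \ {ζ₀}, y ∈ ball (0 : ℂ) δ \ bad := fun y hy =>
      ⟨(hrS hy.1).1, fun h => (hrS hy.1).2 ⟨h, hy.2⟩⟩
    have hd' := Complex.differentiableOn_update_limUnder_of_bddAbove (ball_mem_nhds ζ₀ hr)
      (fun y hy => (hFd y (hgood y hy)).differentiableWithinAt)
      ⟨C, by rintro _ ⟨y, hy, rfl⟩; exact hFb y (hgood y hy).2⟩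
    have hat := hd'.differentiableAt (ball_mem_nhds ζ₀ hr)
    refine ⟨hat.congr_of_eventuallyEq (eventually_of_mem (ball_mem_nhds ζ₀ hr) fun y hy => ?_), ?_⟩
    · rcases eq_or_ne y ζ₀ with rfl | hne
      · simp [H]
      · rw [update_of_ne hne]
        exact hHF y (hgood y ⟨hy, hne⟩)
    · have := hat.continuousAt.continuousWithinAt (s := {ζ₀}ᶜ)
      rw [continuousWithinAt_update_same] at this
      simpa [H] using this
  have hne0 : ∀ ζ₀ ∈ ball (0 : ℂ) δ, ∀ᶠ ζ in 𝓝[≠] ζ₀, ζ ∈ ball (0 : ℂ) δ \ bad := by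
    intro ζ₀ hζ₀
    filter_upwards [mem_nhdsWithin_of_mem_nhds (inter_mem (isOpen_ball.mem_nhds hζ₀)
      ((hbad.sdiff (t := {ζ₀})).isClosed.isOpen_compl.mem_nhds fun h => h.2 rfl)),
      self_mem_nhdsWithin] with ζ h hne
    exact ⟨h.1, fun hb => h.2 ⟨hb, hne⟩⟩
  have hHb : ∀ ζ₀ ∈ ball (0 : ℂ) δ, ‖H ζ₀‖ ≤ C := fun ζ₀ hζ₀ =>
    le_of_tendsto (hlim ζ₀ hζ₀).2.norm ((hne0 ζ₀ hζ₀).mono fun ζ h => hFb ζ h.2)
  -- its value at `0` is not small
  have h0 : (0 : ℂ) ∈ ball (0 : ℂ) δ := mem_ball_self hδ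
  have hH0 : m ≤ ‖H 0‖ := by
    obtain ⟨r, hr, hrf⟩ := Metric.continuousWithinAt_iff.1 (HolOn.continuousWithinAt hf haU) (ε / 2) (half_pos hε)
    have hnear := (hLd.continuous.tendsto' 0 u₀ (by simp [L])).eventually
      (near_fibre c a ρ u₀ (B := ball a r) isOpen_ball fun y hy hd hX => by
        rw [hfib y hy hd hX]; exact mem_ball_self hr)
    refine ge_of_tendsto (hlim 0 h0).2.norm ?_
    filter_upwards [nhdsWithin_le_nhds hnear, hne0 0 h0] with ζ h hgood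
    rw [norm_prod]
    refine le_trans (pow_le_pow_of_le_one (by positivity) (min_le_left _ _)
      (card_fib_le σ a ρ hgood.2)) ?_
    rw [← Finset.prod_const]
    refine Finset.prod_le_prod (fun _ _ => by positivity) fun z hz => ?_
    obtain ⟨⟨hz1, hz2⟩, hz3⟩ := mem_fib.1 hz
    have hfz := hrf (hmemU hz) (mem_ball.1 (h z hz1 (mem_ball.1 hz3).le hz2))
    rw [dist_eq_norm] at hfz
    refine (min_le_right _ _).trans ?_
    linarith [norm_sub_le_norm_sub_add_norm_sub w (f z) (f a)]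
  -- but it vanishes at `t`
  have htb : (t : ℂ) ∈ ball (0 : ℂ) δ \ bad := by
    refine ⟨?_, fun h => hdb (hLt ▸ h)⟩
    rw [mem_ball_zero_iff, Complex.norm_real, Real.norm_eq_abs, abs_of_pos htpos]
    exact htlt.trans_le (min_le_left _ _)
  have hHt : H (t : ℂ) = 0 := by
    rw [hHF _ htb]
    refine Finset.prod_eq_zero (i := b) (mem_fib.2 ⟨⟨hb, hLt.symm⟩, ?_⟩) (sub_self _)
    exact mem_ball.2 (hbd.trans_le (min_le_right _ _))
  have hmaps : MapsTo H (ball 0 δ) (closedBall (H 0) (2 * C)) := fun ζ hζ => by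
    rw [mem_closedBall, dist_eq_norm]
    linarith [norm_sub_le (H ζ) (H 0), hHb ζ hζ, hHb 0 h0]
  have hsch := Complex.dist_le_div_mul_dist_of_mapsTo_ball
    (fun ζ hζ => (hlim ζ hζ).1.differentiableWithinAt) hmaps htb.1
  rw [hHt, dist_zero_left, dist_zero_right, Complex.norm_real, Real.norm_eq_abs,
    abs_of_pos htpos, div_mul_eq_mul_div, le_div_iff₀ hδ] at hsch
  have hlt2 := htlt.trans_le (min_le_right _ _)
  rw [lt_div_iff₀ (by positivity)] at hlt2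
  nlinarith [mul_le_mul_of_nonneg_right hH0 hδ.le]

end

end Vale.Agent.P274.Full.Alg
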