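import Vale.Agent.P274.Full.Stmts
import Vale.Agent.P274.Full.Alg.Equicont
import Mathlib.RingTheory.Ideal.MinimalPrime.Noetherian
import Mathlib.Topology.Separation.Connected

/-!
The exceptional polynomial of a domain in an affine variety.
-/

open Filter Metric Set Function Topology

namespace Vale.Agent.P274.Full.Alg

noncomputable section

variable {N : ℕ}

/-- The ideal of the equations. -/
def eqIdeal (D : CDom N) : Ideal (Pol N) := Ideal.span (D.eqs : Set (Pol N))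

theorem vz_subset (D : CDom N) {p : Ideal (Pol N)} (hp : eqIdeal D ≤ p) : vz p ⊆ D.Z := by
  rw [D.Z_eq]
  exact fun z hz f hf => hz f (hp (Ideal.subset_span hf))

theorem exists_mem_vz (D : CDom N) {z : Cn N} (hz : z ∈ D.Z) :
    ∃ p ∈ (eqIdeal D).minimalPrimes, z ∈ vz p := by
  have hle : eqIdeal D ≤ RingHom.ker (ev z) := by
    rw [D.Z_eq] at hz
    exact Ideal.span_le.2 fun f hf => hz f hf
  have := RingHom.ker_isPrime (ev z)
  obtain ⟨p, hp, hpz⟩ := Ideal.exists_minimalPrimes_le hle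
  exact ⟨p, hp, fun f hf => hpz hf⟩

theorem chart_of_sheet (D : CDom N) {p : Ideal (Pol N)} {k n : ℕ} (c : Proj p k) (hk : k = n)
    (σ : Sheet c) (e : Pol N) (hpZ : vz p ⊆ D.Z)
    (he : ∀ y ∈ D.Z, ev y e ≠ 0 → y ∈ vz p) {z : Cn N} (hz : z ∈ vz p) (hze : ev z e ≠ 0)
    (hzd : ev (c.X z) σ.d ≠ 0) : ∃ φ : Chart D n 0, φ.ψ 0 = z := by
  subst hk
  obtain ⟨ψ, V, B, hV, hB, hzV, hzB, hψd, hψz, hψ, hBψ⟩ := σ.exists_section hz hzd
  let V' : Set (Cn k) := V ∩ ψ ⁻¹' {y | ev y e ≠ 0}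
  have hV' : IsOpen V' :=
    hψd.continuousOn.isOpen_inter_preimage hV (isOpen_ne.preimage (continuous_ev e))
  refine ⟨{
    π := fun y => (c.X y - c.X z, 0)
    ψ := fun w => ψ (c.X z + w.1)
    W := (fun w : Mod k 0 => c.X z + w.1) ⁻¹' V'
    B := B ∩ {y | ev y e ≠ 0}
    isOpen_W := hV'.preimage (by fun_prop)
    isOpen_B := hB.inter (isOpen_ne.preimage (continuous_ev e))
    zero_mem := ?_
    diff_π := ((c.differentiable_X.sub_const _).prodMk
      (differentiable_const (0 : Cn 0))).differentiableOn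
    diff_ψ := hψd.comp ((differentiable_fst.const_add _).differentiableOn) fun w hw => hw.1
    maps_ψ := fun w hw => ⟨hpZ (hψ _ hw.1).1, (hψ _ hw.1).2.1, hw.2⟩
    maps_π := ?_
    π_ψ := ?_
    ψ_π := ?_ }, ?_⟩
  · simp only [mem_preimage, Prod.fst_zero, add_zero, V', mem_inter_iff, hψz, mem_ofPred_eq]
    exact ⟨hzV, hze⟩
  · rintro y ⟨hyZ, hyB, hye⟩
    obtain ⟨h1, h2⟩ := hBψ y ⟨he y hyZ hye, hyB⟩
    simp only [mem_preimage, add_sub_cancel, V', mem_inter_iff, h2, mem_ofPred_eq]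
    exact ⟨h1, hye⟩
  · intro w hw
    simp only [(hψ _ hw.1).2.2, add_sub_cancel_left]
    exact Prod.ext rfl (Subsingleton.elim _ _)
  · rintro y ⟨hyZ, hyB, hye⟩
    simp only [add_sub_cancel]
    exact (hBψ y ⟨he y hyZ hye, hyB⟩).2
  · simp [hψz]

/-- A polynomial in `n` variables cannot vanish on the image of an open piece of a chart. -/
theorem exists_chart_ev_ne (D : CDom N) {n : ℕ} (φ : Chart D n 0) {W' : Set (Mod n 0)}
    (hW' : IsOpen W') (hsub : W' ⊆ φ.W) {x : Mod n 0} (hx : x ∈ W') :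
    ∃ y : Fin n → Pol N, ∀ G : Pol n, G ≠ 0 →
      ∃ w ∈ W', ev (WithLp.toLp 2 fun i => ev (φ.ψ w) (y i)) G ≠ 0 := by
  have hψx : φ.ψ x ∈ φ.B := (φ.maps_ψ x (hsub hx)).2
  set dπ := fderiv ℂ φ.π (φ.ψ x)
  let T : Cn N →L[ℂ] Cn n := (ContinuousLinearMap.fst ℂ (Cn n) (Cn 0)).comp dπ
  let y : Fin n → Pol N := fun j =>
    ∑ i, MvPolynomial.C (T (EuclideanSpace.single i 1) j) * MvPolynomial.X i
  have hy : ∀ z : Cn N, (WithLp.toLp 2 fun j => ev z (y j) : Cn n) = T z := fun z => by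
    refine PiLp.ext fun j => ?_
    conv_rhs => rw [← (EuclideanSpace.basisFun (Fin N) ℂ).sum_repr z]
    simp [y, ev, map_sum, mul_comm]
  refine ⟨y, fun G hG => ?_⟩
  have hTd : DifferentiableOn ℂ (fun w => T (φ.ψ w)) W' :=
    T.differentiable.comp_differentiableOn (φ.diff_ψ.mono hsub)
  have hψat := (φ.diff_ψ x (hsub hx)).differentiableAt (φ.isOpen_W.mem_nhds (hsub hx))
  have hπat := (φ.diff_π _ hψx).differentiableAt (φ.isOpen_B.mem_nhds hψx)
  have hid : dπ.comp (fderiv ℂ φ.ψ x) = ContinuousLinearMap.id ℂ (Mod n 0) := by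
    rw [← fderiv_comp x hπat hψat]
    refine (Filter.EventuallyEq.fderiv_eq ?_).trans fderiv_id
    filter_upwards [φ.isOpen_W.mem_nhds (hsub hx)] with w hw using φ.π_ψ w hw
  have hT : fderiv ℂ (fun w => T (φ.ψ w)) x = ContinuousLinearMap.fst ℂ (Cn n) (Cn 0) := by
    rw [show (fun w => T (φ.ψ w)) = T ∘ φ.ψ from rfl, fderiv_comp x T.differentiableAt hψat,
      T.fderiv, ContinuousLinearMap.comp_assoc, hid, ContinuousLinearMap.comp_id]
  have hstrict := Surface.hasStrictFDerivAt hW' hTd hx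
  rw [hT] at hstrict
  have hmap := hstrict.map_nhds_eq_of_surj
    (LinearMap.range_eq_top.2 fun a => ⟨(a, 0), rfl⟩)
  have himg : (fun w => T (φ.ψ w)) '' W' ∈ 𝓝 (T (φ.ψ x)) :=
    hmap ▸ image_mem_map (hW'.mem_nhds hx)
  obtain ⟨_, ⟨w, hw, rfl⟩, hne⟩ := exists_ev_ne hG _ himg
  exact ⟨w, hw, by rw [hy]; exact hne⟩

/-- The exceptional polynomial exists. -/
theorem alg : AlgStmt := by
  classical
  intro N D
  set I := eqIdeal D
  have : Finite I.minimalPrimes := (I.finite_minimalPrimes_of_isNoetherianRing (Pol N)).to_subtype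
  let _ : Fintype I.minimalPrimes := Fintype.ofFinite _
  have hprime : ∀ p : I.minimalPrimes, p.1.IsPrime := fun p => p.2.1.1
  have hle : ∀ p : I.minimalPrimes, I ≤ p.1 := fun p => p.2.1.2
  choose s hs using fun p : I.minimalPrimes => haveI := hprime p; exists_proj p.1
  let c : ∀ p, Proj p.1 (s p) := fun p => (hs p).some
  choose σ hσ using fun p : I.minimalPrimes => haveI := hprime p; exists_sheet (c p) ∅
  let meets : Finset I.minimalPrimes := Finset.univ.filter fun p => (D.U ∩ vz p.1).Nonempty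
  set n := meets.sup s with hn
  have hUZ : ∀ z ∈ D.U, z ∈ D.Z := fun z hz => (D.U_eq ▸ hz).1
  have hmeets : ∀ z ∈ D.U, ∀ p : I.minimalPrimes, z ∈ vz p.1 → p ∈ meets := fun z hz p hp =>
    Finset.mem_filter.2 ⟨Finset.mem_univ _, z, hz, hp⟩
  rcases Nat.eq_zero_or_pos n with h0 | hpos
  · -- all branches are finite
    left
    have hfin : D.U.Finite := by
      refine ((meets.finite_toSet).biUnion (t := fun p => vz p.1) fun p hp => ?_).subset
        fun z hz => ?_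
      · have h : s p = 0 := Nat.le_zero.1 (h0 ▸ Finset.le_sup (f := s) hp)
        exact ((c p).finite_fibre 0).subset fun z hz => ⟨hz, PiLp.ext fun j => (h ▸ j).elim0⟩
      · obtain ⟨p, hp, hpz⟩ := exists_mem_vz D (hUZ z hz)
        exact mem_iUnion₂.2 ⟨⟨p, hp⟩, hmeets z hz ⟨p, hp⟩ hpz, hpz⟩
    by_contra h
    exact D.connected_U.isPreconnected.infinite_of_nontrivial (not_subsingleton_iff.1 h) hfin
  right
  let top : Finset I.minimalPrimes := meets.filter fun p => s p = n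
  -- a polynomial vanishing on the other branches
  have hsel : ∀ p q : I.minimalPrimes, ∃ g : Pol N, q ≠ p → g ∈ q.1 ∧ g ∉ p.1 := by
    intro p q
    by_cases h : q = p
    · exact ⟨0, fun hne => absurd h hne⟩
    have : ¬ q.1 ≤ p.1 := fun hqp => h (Subtype.ext (le_antisymm hqp (p.2.2 q.2.1 hqp)))
    obtain ⟨g, hg, hg'⟩ := SetLike.not_le_iff_exists.1 this
    exact ⟨g, fun _ => ⟨hg, hg'⟩⟩
  choose g hg using hsel
  let e : I.minimalPrimes → Pol N := fun p => ∏ q ∈ Finset.univ.erase p, g p q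
  have he_mem : ∀ p q : I.minimalPrimes, q ≠ p → e p ∈ q.1 := fun p q hne => by
    refine q.1.mem_of_dvd (Finset.dvd_prod_of_mem _ ?_) (hg p q hne).1
    exact Finset.mem_erase.2 ⟨hne, Finset.mem_univ _⟩
  have he_not : ∀ p : I.minimalPrimes, e p ∉ p.1 := fun p h => by
    obtain ⟨q, hq, hq'⟩ := ((hprime p).prod_mem_iff).1 h
    exact (hg p q (Finset.ne_of_mem_erase hq)).2 hq'
  set P₀ : Pol N := ∑ p ∈ top, e p * ι (c p).x (σ p).d with hP₀
  have hterm : ∀ p q : I.minimalPrimes, q ≠ p → e p * ι (c p).x (σ p).d ∈ q.1 :=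
    fun p q hne => q.1.mul_mem_right _ (he_mem p q hne)
  have hmod : ∀ q : I.minimalPrimes,
      P₀ - (if q ∈ top then e q * ι (c q).x (σ q).d else 0) ∈ q.1 := by
    intro q
    by_cases hq : q ∈ top
    · rw [if_pos hq, hP₀, ← Finset.add_sum_erase _ _ hq, add_sub_cancel_left]
      exact q.1.sum_mem fun p hp => hterm p q (Finset.ne_of_mem_erase hp).symm
    · rw [if_neg hq, sub_zero]
      exact q.1.sum_mem fun p hp => hterm p q fun h => hq (h ▸ hp)
  have hval : ∀ (q : I.minimalPrimes) (z : Cn N), z ∈ vz q.1 → ev z P₀ ≠ 0 →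
      q ∈ top ∧ ev z (e q) ≠ 0 ∧ ev ((c q).X z) (σ q).d ≠ 0 := by
    intro q z hz hne
    have h := hz _ (hmod q)
    rw [map_sub, sub_eq_zero] at h
    by_cases hq : q ∈ top
    · rw [if_pos hq, map_mul, (c q).ev_ι] at h
      rw [h] at hne
      exact ⟨hq, left_ne_zero_of_mul hne, right_ne_zero_of_mul hne⟩
    · rw [if_neg hq, map_zero] at h
      exact absurd h hne
  have hnot : ∀ q ∈ top, P₀ ∉ (q : I.minimalPrimes).1 := by
    intro q hq h
    have := q.1.sub_mem h (hmod q)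
    rw [if_pos hq, sub_sub_cancel] at this
    rcases (hprime q).mem_or_mem this with h' | h'
    · exact he_not q h'
    · exact (σ q).d_ne ((c q).inj _ h')
  refine ⟨n, P₀, hpos, ?_, ?_, ?_, ?_⟩
  · -- somewhere in `U`
    obtain ⟨p, hp, hpn⟩ := Finset.exists_mem_eq_sup meets
      (Finset.nonempty_iff_ne_empty.2 fun h => by simp [hn, h] at hpos) s
    obtain ⟨a, haU, hap⟩ := (Finset.mem_filter.1 hp).2
    obtain ⟨ε, hε, hεO⟩ := Metric.isOpen_iff.1 D.isOpen_O a (D.U_eq ▸ haU).2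
    have := hprime p
    obtain ⟨b, hb, hba, hbne⟩ :=
      (c p).exists_near hap (hnot p (Finset.mem_filter.2 ⟨hp, hpn.symm⟩)) hε
    exact ⟨b, D.U_eq ▸ ⟨vz_subset D (hle p) hb, hεO hba⟩, hbne⟩
  · -- charts
    intro z _ hz hne
    obtain ⟨p, hp, hpz⟩ := exists_mem_vz D hz
    obtain ⟨hq, heq, hd⟩ := hval ⟨p, hp⟩ z hpz hne
    refine chart_of_sheet D (c ⟨p, hp⟩) (Finset.mem_filter.1 hq).2 (σ _) (e ⟨p, hp⟩)
      (vz_subset D (hle ⟨p, hp⟩)) (fun y hy hye => ?_) hpz heq hd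
    obtain ⟨q, hq', hqy⟩ := exists_mem_vz D hy
    by_contra hy'
    refine hye (hqy _ (he_mem ⟨p, hp⟩ ⟨q, hq'⟩ fun h => hy' ?_))
    have hqp : q = p := congrArg Subtype.val h
    exact hqp ▸ hqy
  · -- density
    intro φ x hx
    rw [Metric.mem_closure_iff]
    intro ε hε
    let W' := φ.W ∩ φ.ψ ⁻¹' (ball (φ.ψ x) ε ∩ D.O)
    have hW' : IsOpen W' :=
      φ.diff_ψ.continuousOn.isOpen_inter_preimage φ.isOpen_W (isOpen_ball.inter D.isOpen_O)
    have hxW : x ∈ W' := ⟨hx.1, mem_ball_self hε, (D.U_eq ▸ hx.2).2⟩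
    have hWU : ∀ w ∈ W', φ.ψ w ∈ D.U := fun w hw =>
      D.U_eq ▸ ⟨(φ.maps_ψ w hw.1).1, hw.2.2⟩
    obtain ⟨y, hy⟩ := exists_chart_ev_ne D φ hW' inter_subset_left hxW
    by_contra hc
    push Not at hc
    have hrel : ∀ p ∈ meets, ∃ G : Pol n, G ≠ 0 ∧ ∀ z ∈ vz (p : I.minimalPrimes).1,
        ev z P₀ = 0 → ev (WithLp.toLp 2 fun i => ev z (y i)) G = 0 := by
      intro p hp
      have := hprime p
      rcases (Finset.le_sup (f := s) hp).lt_or_eq with h | h
      · obtain ⟨G, hG, hGp⟩ := (c p).dep y h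
        refine ⟨G, hG, fun z hz _ => ?_⟩
        have he : (ev z).comp (MvPolynomial.aeval y).toRingHom =
            ev (WithLp.toLp 2 fun i => ev z (y i)) :=
          MvPolynomial.ringHom_ext (fun a => by simp [ev]) fun j => by simp [ev]
        rw [← he]
        exact hz _ hGp
      · exact (c p).dep_zero y h.le (hnot p (Finset.mem_filter.2 ⟨hp, h⟩))
    choose! G hG hGz using hrel
    obtain ⟨w, hw, hne⟩ := hy (∏ p ∈ meets, G p) (Finset.prod_ne_zero_iff.2 hG)
    obtain ⟨p, hp, hpz⟩ := exists_mem_vz D (hUZ _ (hWU w hw))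
    refine hne ?_
    rw [map_prod]
    refine Finset.prod_eq_zero (hmeets _ (hWU w hw) ⟨p, hp⟩ hpz) (hGz _ (hmeets _ (hWU w hw) ⟨p, hp⟩ hpz) _ hpz ?_)
    by_contra hne'
    refine absurd (hc (φ.ψ w) ⟨hWU w hw, hne'⟩) (not_le.2 ?_)
    rw [dist_comm]
    exact hw.2.1
  · -- equicontinuity
    intro a b f M ha hb hba hf hfM hf0
    rw [Metric.tendsto_atTop] at hf0 ⊢
    intro ε hε
    have haO : a ∈ D.O := (D.U_eq ▸ ha).2
    have hbr : ∀ q : I.minimalPrimes, ∀ᶠ j in atTop, b j ∈ vz q.1 →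
        ev ((c q).X (b j)) (σ q).d ≠ 0 → ‖f j (b j) - f j a‖ ≤ ε / 4 := by
      intro q
      by_cases haq : a ∈ vz q.1
      · have := hprime q
        obtain ⟨η, hη, h⟩ := equicont (σ q) (U := D.U) D.isOpen_O
          (fun z hz => D.U_eq ▸ ⟨vz_subset D (hle q) hz.1, hz.2⟩) haq haO M
          (show (0 : ℝ) < ε / 4 by positivity)
        filter_upwards [Metric.tendsto_nhds.1 hba η hη] with j hj h1 h2
        exact h (b j) h1 hj h2 (f j) (hf j) (hfM j)
      · filter_upwards [hba.eventually ((isClosed_vz q.1).isOpen_compl.mem_nhds haq)] with j hj h1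
        exact absurd h1 hj
    obtain ⟨J, hJ⟩ := eventually_atTop.1 (eventually_all.2 hbr)
    obtain ⟨J', hJ'⟩ := hf0 (ε / 4) (by positivity)
    refine ⟨max J J', fun j hj => ?_⟩
    obtain ⟨p, hp, hpz⟩ := exists_mem_vz D (hUZ _ (hb j).1)
    have h1 := hJ j (le_of_max_le_left hj) ⟨p, hp⟩ hpz (hval ⟨p, hp⟩ _ hpz (hb j).2).2.2
    have h2 := hJ' j (le_of_max_le_right hj)
    rw [dist_zero_right] at h2 ⊢
    linarith [norm_le_insert' (f j (b j)) (f j a)]

end

end Vale.Agent.P274.Full.Alg
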