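import Vale.Agent.P274.Full.Alg.Branch
import Vale.Agent.P274.Surface.Holo
import Mathlib.Analysis.Complex.Polynomial.Basic
import Mathlib.Analysis.Polynomial.CauchyBound
import Mathlib.Analysis.Calculus.Deriv.Polynomial
import Mathlib.Analysis.Calculus.FDeriv.OfCompLeft
import Mathlib.Algebra.MvPolynomial.Funext
import Mathlib.Analysis.InnerProductSpace.Calculus

/-!
The zero set of a prime ideal over its Noether projection: local sheets and density.
-/

open Filter Metric Set Function Topology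

namespace Vale.Agent.P274.Full.Alg

noncomputable section

variable {N s : ℕ} {p : Ideal (Pol N)}

theorem differentiable_ev (f : Pol N) : Differentiable ℂ fun z : Cn N => ev z f := by
  induction f using MvPolynomial.induction_on with
  | C a => simp [ev]
  | add f g hf hg => simp only [map_add]; exact hf.add hg
  | mul_X f i hf =>
    simp only [map_mul]
    refine hf.mul ?_
    simpa [ev] using (EuclideanSpace.proj i : Cn N →L[ℂ] ℂ).differentiable

theorem continuous_ev (f : Pol N) : Continuous fun z : Cn N => ev z f :=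
  (differentiable_ev f).continuous

theorem isClosed_vz (p : Ideal (Pol N)) : IsClosed (vz p) := by
  have : vz p = ⋂ f ∈ p, {z | ev z f = 0} := by ext; simp [vz]
  rw [this]
  exact isClosed_biInter fun f _ => isClosed_eq (continuous_ev f) continuous_const

theorem Proj.differentiable_X (c : Proj p s) : Differentiable ℂ c.X :=
  differentiable_euclidean.2 fun j => differentiable_ev (c.x j)

theorem Proj.continuous_X (c : Proj p s) : Continuous c.X := c.differentiable_X.continuous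

/-- A nonzero polynomial is nonzero somewhere near every point. -/
theorem exists_ev_ne {n : ℕ} {G : Pol n} (hG : G ≠ 0) (a : Cn n) {V : Set (Cn n)}
    (hV : V ∈ 𝓝 a) : ∃ u ∈ V, ev u G ≠ 0 := by
  by_contra h
  push Not at h
  have hpre : (fun x : Fin n → ℂ => WithLp.toLp 2 x) ⁻¹' V ∈ 𝓝 (fun i => a i) :=
    (PiLp.continuous_toLp 2 _).continuousAt.preimage_mem_nhds (by simpa using hV)
  obtain ⟨r, hr, hball⟩ := Metric.mem_nhds_iff.1 hpre
  refine hG (MvPolynomial.funext_set (fun i => Metric.ball (a i) r)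
    (fun i => infinite_of_mem_nhds (a i) (Metric.ball_mem_nhds _ hr)) fun x hx => ?_)
  have hxb : x ∈ Metric.ball (fun i => a i) r := by
    rw [mem_ball, dist_pi_lt_iff hr]
    exact fun i => hx i trivial
  simpa [ev] using h _ (hball hxb)

theorem continuous_eval_map {n : ℕ} (Q : Polynomial (Pol n)) :
    Differentiable ℂ fun q : Cn n × ℂ => (Q.map (ev q.1)).eval q.2 := by
  induction Q using Polynomial.induction_on' with
  | add P Q hP hQ => simp only [Polynomial.map_add, Polynomial.eval_add]; exact hP.add hQ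
  | monomial k G =>
    simp only [Polynomial.map_monomial, Polynomial.eval_monomial]
    exact ((differentiable_ev G).comp differentiable_fst).mul (differentiable_snd.pow k)

/-- Zeros over a bounded set of the base are bounded. -/
theorem Proj.exists_bound (c : Proj p s) (R : ℝ) :
    ∃ B, ∀ z ∈ vz p, ‖c.X z‖ ≤ R → ‖z‖ ≤ B := by
  choose Q hQ hQp using fun i => c.integral (MvPolynomial.X i)
  have hcb : ∀ i, ∃ B, ∀ u : Cn s, ‖u‖ ≤ R → ∀ r, ((Q i).map (ev u)).eval r = 0 → ‖r‖ ≤ B := by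
    intro i
    have hc : Continuous fun u : Cn s =>
        1 + ∑ j ∈ Finset.range (Q i).natDegree, ‖ev u ((Q i).coeff j)‖ := by
      have := fun j => continuous_ev (N := s) ((Q i).coeff j)
      fun_prop
    obtain ⟨B, hB⟩ := (isCompact_closedBall (0 : Cn s) R).exists_bound_of_continuousOn hc.continuousOn
    refine ⟨B, fun u hu r hr => le_trans ?_ ((le_abs_self _).trans (hB u (by simpa using hu)))⟩
    -- the root is bounded by one plus the sum of the coefficients
    rcases le_or_gt ‖r‖ 1 with h | h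
    · exact h.trans (le_add_of_nonneg_right (by positivity))
    have hsum := hr
    rw [Polynomial.eval_eq_sum_range, (hQ i).natDegree_map, Finset.sum_range_succ] at hsum
    simp only [Polynomial.coeff_map, (hQ i).coeff_natDegree, map_one, one_mul] at hsum
    set n := (Q i).natDegree with hn
    have hr1 : ‖r‖ ^ n ≤ (∑ j ∈ Finset.range n, ‖ev u ((Q i).coeff j)‖) * ‖r‖ ^ (n - 1) := by
      rw [← norm_pow, eq_neg_of_add_eq_zero_right hsum, norm_neg, Finset.sum_mul]
      refine (norm_sum_le _ _).trans (Finset.sum_le_sum fun j hj => ?_)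
      rw [norm_mul, norm_pow]
      have := Finset.mem_range.1 hj
      exact mul_le_mul_of_nonneg_left (pow_le_pow_right₀ h.le (by omega)) (norm_nonneg _)
    rcases Nat.eq_zero_or_pos n with h0 | h0
    · simp [h0] at hr1
      linarith
    · rw [show ‖r‖ ^ n = ‖r‖ * ‖r‖ ^ (n - 1) by
        rw [← pow_succ', Nat.sub_add_cancel h0]] at hr1
      linarith [le_of_mul_le_mul_right hr1 (pow_pos (zero_lt_one.trans h) _)]
  choose B hB using hcb
  refine ⟨∑ i, |B i|, fun z hz hzR => ?_⟩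
  calc ‖z‖ ≤ ∑ i, ‖z i‖ := by
        conv_lhs => rw [← (EuclideanSpace.basisFun (Fin N) ℂ).sum_repr z]
        refine (norm_sum_le _ _).trans (le_of_eq ?_)
        simp [norm_smul]
    _ ≤ _ := Finset.sum_le_sum fun i _ => (hB i _ hzR _ ?_).trans (le_abs_self _)
  have := hz _ (hQp i)
  rw [c.ev_eval₂] at this
  simpa [ev] using this

theorem Proj.isCompact_inter (c : Proj p s) {K : Set (Cn s)} (hK : IsCompact K) :
    IsCompact (vz p ∩ c.X ⁻¹' K) := by
  obtain ⟨R, hR⟩ := hK.isBounded.exists_norm_le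
  obtain ⟨B, hB⟩ := c.exists_bound R
  exact Metric.isCompact_of_isClosed_isBounded
    ((isClosed_vz p).inter (hK.isClosed.preimage c.continuous_X))
    (isBounded_iff_forall_norm_le.2 ⟨B, fun z hz => hB z hz.1 (hR _ hz.2)⟩)

theorem Proj.finite_fibre (c : Proj p s) (u : Cn s) : {z ∈ vz p | c.X z = u}.Finite := by
  choose Q hQ hQp using fun i => c.integral (MvPolynomial.X i)
  let T : Set (Fin N → ℂ) := Set.pi univ fun i => {r | ((Q i).map (ev u)).IsRoot r}
  have hT : T.Finite :=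
    Set.Finite.pi fun i => Polynomial.finite_setOfPred_isRoot ((hQ i).map _).ne_zero
  refine (hT.image fun x => (WithLp.toLp 2 x : Cn N)).subset ?_
  rintro z ⟨hz, rfl⟩
  refine ⟨fun i => z i, fun i _ => ?_, rfl⟩
  have := hz _ (hQp i)
  rw [c.ev_eval₂] at this
  simpa [ev, Polynomial.IsRoot.def] using this

variable {c : Proj p s}

theorem Sheet.root_eval (σ : Sheet c) {z : Cn N} (hz : z ∈ vz p) :
    (σ.μ.map (ev (c.X z))).eval (ev z σ.θ) = 0 := by
  rw [← c.ev_eval₂]
  exact hz _ σ.root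

theorem Sheet.coord (σ : Sheet c) {z : Cn N} (hz : z ∈ vz p) (hd : ev (c.X z) σ.d ≠ 0)
    (i : Fin N) : z i = ((σ.G i).map (ev (c.X z))).eval (ev z σ.θ) / ev (c.X z) σ.d := by
  have := hz _ (σ.solve i)
  rw [map_sub, map_mul, c.ev_ι, c.ev_eval₂, sub_eq_zero] at this
  rw [eq_div_iff hd, ← this, mul_comm]
  simp [ev]

theorem Sheet.ext (σ : Sheet c) {z z' : Cn N} (hz : z ∈ vz p) (hz' : z' ∈ vz p)
    (hd : ev (c.X z) σ.d ≠ 0) (hX : c.X z' = c.X z) (hθ : ev z' σ.θ = ev z σ.θ) : z' = z :=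
  PiLp.ext fun i => by
    rw [σ.coord hz hd i, σ.coord hz' (by rw [hX]; exact hd) i, hX, hθ]

theorem Sheet.natDegree_pos [hp : p.IsPrime] (σ : Sheet c) : 0 < σ.μ.natDegree := by
  refine Nat.pos_of_ne_zero fun h => hp.ne_top ((Ideal.eq_top_iff_one _).2 ?_)
  have := σ.root
  rwa [σ.monic.natDegree_eq_zero.1 h, Polynomial.eval₂_one] at this

/-- Off the discriminant the zero set is a graph over the base. -/
theorem Sheet.exists_section (σ : Sheet c) {z : Cn N} (hz : z ∈ vz p)
    (hd : ev (c.X z) σ.d ≠ 0) :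
    ∃ (ψ : Cn s → Cn N) (V : Set (Cn s)) (B : Set (Cn N)), IsOpen V ∧ IsOpen B ∧ c.X z ∈ V ∧
      z ∈ B ∧ DifferentiableOn ℂ ψ V ∧ ψ (c.X z) = z ∧
      (∀ u ∈ V, ψ u ∈ vz p ∧ ψ u ∈ B ∧ c.X (ψ u) = u) ∧
      ∀ y ∈ vz p ∩ B, c.X y ∈ V ∧ ψ (c.X y) = y := by
  let g : Cn s × ℂ → ℂ := fun q => (σ.μ.map (ev q.1)).eval q.2
  have hg : Differentiable ℂ g := continuous_eval_map σ.μ
  let Φ : Cn s × ℂ → Cn s × ℂ := fun q => (q.1, g q)
  have hΦ : Differentiable ℂ Φ := differentiable_fst.prodMk hg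
  set q₀ : Cn s × ℂ := (c.X z, ev z σ.θ) with hq₀
  have hfd : ∀ q, fderiv ℂ Φ q = (ContinuousLinearMap.fst ℂ (Cn s) ℂ).prod (fderiv ℂ g q) :=
    fun q => (hasFDerivAt_fst.prodMk (hg q).hasFDerivAt).fderiv
  have hsnd : fderiv ℂ g q₀ (0, 1) = (σ.μ.derivative.map (ev q₀.1)).eval q₀.2 := by
    have h1 : HasDerivAt (fun r : ℂ => ((q₀.1, r) : Cn s × ℂ)) (0, 1) q₀.2 :=
      (hasDerivAt_const q₀.2 q₀.1).prodMk (hasDerivAt_id _)
    have h2 : HasDerivAt (fun r : ℂ => g (q₀.1, r)) (fderiv ℂ g q₀ (0, 1)) q₀.2 :=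
      (hg q₀).hasFDerivAt.comp_hasDerivAt q₀.2 h1
    rw [← Polynomial.derivative_map]
    exact h2.unique ((σ.μ.map (ev q₀.1)).hasDerivAt q₀.2)
  have hne : fderiv ℂ g q₀ (0, 1) ≠ 0 := by
    rw [hsnd]; exact σ.simple _ _ hd (σ.root_eval hz)
  have hinj : Function.Injective (fderiv ℂ Φ q₀) := by
    rw [injective_iff_map_eq_zero]
    rintro ⟨a, b⟩ h
    rw [hfd] at h
    obtain ⟨rfl, hb⟩ := Prod.ext_iff.1 h
    have hb' : fderiv ℂ g q₀ (b • ((0 : Cn s), (1 : ℂ))) = 0 := by simpa using hb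
    rw [map_smul, smul_eq_mul, mul_eq_zero] at hb'
    simp [hb'.resolve_right hne]
  let A : (Cn s × ℂ) ≃L[ℂ] Cn s × ℂ := (LinearEquiv.ofBijective
    (fderiv ℂ Φ q₀).toLinearMap
    ⟨hinj, LinearMap.injective_iff_surjective.1 hinj⟩).toContinuousLinearEquiv
  have hA : HasStrictFDerivAt Φ (A : (Cn s × ℂ) →L[ℂ] Cn s × ℂ) q₀ :=
    Surface.hasStrictFDerivAt isOpen_univ hΦ.differentiableOn (mem_univ q₀)
  let e := hA.toOpenPartialHomeomorph Φ
  have hcont : Continuous (fderiv ℂ Φ) :=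
    continuousOn_univ.1 (Surface.continuousOn_fderiv isOpen_univ hΦ.differentiableOn)
  set O : Set (Cn s × ℂ) := e.source ∩ (fderiv ℂ Φ ⁻¹'
    interior (range ((↑) : ((Cn s × ℂ) ≃L[ℂ] Cn s × ℂ) → _))) ∩ {q | ev q.1 σ.d ≠ 0} with hOdef
  have hO : IsOpen O := (e.open_source.inter (isOpen_interior.preimage hcont)).inter
    (isOpen_ne.preimage ((continuous_ev σ.d).comp continuous_fst))
  have hq₀O : q₀ ∈ O := ⟨⟨hA.mem_toOpenPartialHomeomorph_source,
    mem_interior_iff_mem_nhds.2 (show range _ ∈ 𝓝 (fderiv ℂ Φ q₀) from A.nhds)⟩, hd⟩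
  have hT : IsOpen (e '' O) := e.isOpen_image_of_subset_source hO fun q hq => hq.1.1
  have heΦ : ∀ q, e q = Φ q := fun q => by rw [hA.toOpenPartialHomeomorph_coe]
  have hsymm : DifferentiableOn ℂ e.symm (e '' O) := by
    rintro _ ⟨q, hq, rfl⟩
    obtain ⟨A', hA'⟩ := interior_subset hq.1.2
    refine (e.hasFDerivAt_symm (f' := A') (e.map_source hq.1.1) ?_).differentiableAt
      |>.differentiableWithinAt
    rw [e.left_inv hq.1.1, hA', show (e : Cn s × ℂ → Cn s × ℂ) = Φ from funext heΦ]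
    exact (hΦ q).hasFDerivAt
  let V : Set (Cn s) := (fun u => ((u, 0) : Cn s × ℂ)) ⁻¹' (e '' O)
  let r : Cn s → ℂ := fun u => (e.symm (u, 0)).2
  let ψ : Cn s → Cn N := fun u =>
    WithLp.toLp 2 fun i => ((σ.G i).map (ev u)).eval (r u) / ev u σ.d
  have hback : ∀ u ∈ V, (u, r u) ∈ O ∧ (σ.μ.map (ev u)).eval (r u) = 0 := by
    rintro u ⟨q, hq, hqu⟩
    replace hqu : e q = (u, 0) := hqu
    have hs : e.symm (u, 0) = q := by rw [← hqu, e.left_inv hq.1.1]
    rw [heΦ] at hqu
    have h1 : q.1 = u := congrArg Prod.fst hqu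
    have h2 : g q = 0 := congrArg Prod.snd hqu
    have : (u, r u) = q := Prod.ext h1.symm (by simp [r, hs])
    exact ⟨by rw [this]; exact hq, by rw [show r u = q.2 by simp [r, hs], ← h1]; exact h2⟩
  have hB : ∀ y ∈ vz p, (c.X y, ev y σ.θ) ∈ O →
      c.X y ∈ V ∧ ψ (c.X y) = y := by
    intro y hy hyO
    have he0 : e (c.X y, ev y σ.θ) = (c.X y, 0) := by
      rw [heΦ]; exact Prod.ext rfl (σ.root_eval hy)
    refine ⟨⟨_, hyO, he0⟩, PiLp.ext fun i => ?_⟩
    have hr : r (c.X y) = ev y σ.θ := by simp [r, ← he0, e.left_inv hyO.1.1]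
    simp [ψ, hr, ← σ.coord hy hyO.2 i]
  have hpoint : ∀ u ∈ V, ψ u ∈ vz p ∧ c.X (ψ u) = u ∧ ev (ψ u) σ.θ = r u := by
    intro u hu
    obtain ⟨hO', hroot⟩ := hback u hu
    obtain ⟨y, hy, hXy, hθy⟩ := σ.point u (r u) hO'.2 hroot
    have : ψ u = y := by
      have := (hB y hy (by rw [hXy, hθy]; exact hO')).2
      rwa [hXy] at this
    rw [this]
    exact ⟨hy, hXy, hθy⟩
  refine ⟨ψ, V, {y | (c.X y, ev y σ.θ) ∈ O}, hT.preimage (by fun_prop),
    hO.preimage (c.continuous_X.prodMk (continuous_ev _)), (hB z hz hq₀O).1, hq₀O, ?_,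
    (hB z hz hq₀O).2, fun u hu => ?_, fun y hy => hB y hy.1 hy.2⟩
  · refine (differentiableOn_euclidean).2 fun i => ?_
    have hr : DifferentiableOn ℂ r V :=
      (hsymm.comp (differentiableOn_id.prodMk (differentiableOn_const (0 : ℂ))) fun u hu => hu).snd
    change DifferentiableOn ℂ (fun u => ((σ.G i).map (ev u)).eval (r u) / ev u σ.d) V
    have hnum : DifferentiableOn ℂ (fun u => ((σ.G i).map (ev u)).eval (r u)) V :=
      (continuous_eval_map (σ.G i)).comp_differentiableOn (differentiableOn_id.prodMk hr)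
    simp only [div_eq_mul_inv]
    exact hnum.mul (((differentiable_ev σ.d).differentiableOn (s := V)).inv
      fun u hu => (hback u hu).1.2)
  · obtain ⟨h1, h2, h3⟩ := hpoint u hu
    refine ⟨h1, ?_, h2⟩
    change (c.X (ψ u), ev (ψ u) σ.θ) ∈ O
    rw [h2, h3]
    exact (hback u hu).1

/-- Every zero of `p` is a limit of zeros off a given `f ∉ p`. -/
theorem Proj.exists_near [hp : p.IsPrime] (c : Proj p s) {a : Cn N} (ha : a ∈ vz p) {f : Pol N}
    (hf : f ∉ p) {ε : ℝ} (hε : 0 < ε) : ∃ b ∈ vz p, dist b a < ε ∧ ev b f ≠ 0 := by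
  classical
  obtain ⟨σ, hσ⟩ := exists_sheet c (c.finite_fibre (c.X a)).toFinset
  obtain ⟨G, hG, hGf⟩ := c.const hf
  have hh : G * σ.d ≠ 0 := mul_ne_zero hG σ.d_ne
  have hdeg := σ.natDegree_pos
  have hu : ∀ k : ℕ, ∃ u : Cn s, dist u (c.X a) < 1 / (k + 1) ∧ ev u (G * σ.d) ≠ 0 := fun k => by
    obtain ⟨u, hu, h⟩ := exists_ev_ne hh (c.X a)
      (ball_mem_nhds (c.X a) (show (0 : ℝ) < 1 / (k + 1) by positivity))
    exact ⟨u, mem_ball.1 hu, h⟩
  choose u hu hune using hu
  have hru : ∀ k, ∃ r : ℂ, (σ.μ.map (ev (u k))).eval r = 0 ∧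
      ‖ev a σ.θ - r‖ ^ σ.μ.natDegree ≤ ‖(σ.μ.map (ev (u k))).eval (ev a σ.θ)‖ := by
    intro k
    set P := σ.μ.map (ev (u k))
    have hP : P.Monic := σ.monic.map _
    have hs : P.Splits := IsAlgClosed.splits P
    have hcard : P.roots.card = σ.μ.natDegree := by
      rw [← hs.natDegree_eq_card_roots, σ.monic.natDegree_map]
    obtain ⟨r, hr, hmin⟩ := Finset.exists_min_image P.roots.toFinset (fun r => ‖ev a σ.θ - r‖)
      (by
        rw [← Finset.card_pos, Finset.card_pos, Multiset.toFinset_nonempty,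
          ← Multiset.card_pos, hcard]
        exact hdeg)
    rw [Multiset.mem_toFinset] at hr
    refine ⟨r, Polynomial.isRoot_of_mem_roots hr, ?_⟩
    rw [hs.eval_eq_prod_roots_of_monic hP, ← hcard]
    have key : ∀ M : Multiset ℂ, (∀ x ∈ M, ‖ev a σ.θ - r‖ ≤ ‖ev a σ.θ - x‖) →
        ‖ev a σ.θ - r‖ ^ M.card ≤ ‖(M.map fun x => ev a σ.θ - x).prod‖ := by
      intro M
      induction M using Multiset.induction with
      | empty => simp
      | cons x M ih =>
        intro h
        rw [Multiset.card_cons, Multiset.map_cons, Multiset.prod_cons, norm_mul, pow_succ']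
        exact mul_le_mul (h x (Multiset.mem_cons_self _ _))
          (ih fun y hy => h y (Multiset.mem_cons_of_mem hy)) (by positivity) (norm_nonneg _)
    exact key _ fun x hx => hmin x (Multiset.mem_toFinset.2 hx)
  choose r hr hrle using hru
  have hd : ∀ k, ev (u k) σ.d ≠ 0 := fun k h => hune k (by rw [map_mul, h, mul_zero])
  choose b hb hXb hθb using fun k => σ.point (u k) (r k) (hd k) (hr k)
  have htu : Tendsto u atTop (𝓝 (c.X a)) := tendsto_iff_dist_tendsto_zero.2
    (squeeze_zero (fun _ => dist_nonneg) (fun k => (hu k).le) tendsto_one_div_add_atTop_nhds_zero_nat)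
  have hcpt := c.isCompact_inter (isCompact_closedBall (c.X a) 1)
  obtain ⟨b', hb', φ, hφ, hlim⟩ := hcpt.tendsto_subseq (x := b) fun k =>
    ⟨hb k, by
      rw [mem_preimage, mem_closedBall, hXb k]
      exact (hu k).le.trans (by rw [div_le_one (by positivity)]; linarith [k.cast_nonneg (α := ℝ)])⟩
  have hX' : c.X b' = c.X a := tendsto_nhds_unique ((c.continuous_X.tendsto b').comp hlim)
    (by simpa [Function.comp_def, hXb] using htu.comp hφ.tendsto_atTop)
  have hθ' : ev b' σ.θ = ev a σ.θ := by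
    have h1 : Tendsto (fun k => ‖ev a σ.θ - r (φ k)‖ ^ σ.μ.natDegree) atTop
        (𝓝 (‖ev a σ.θ - ev b' σ.θ‖ ^ σ.μ.natDegree)) := by
      have := ((continuous_ev σ.θ).tendsto b').comp hlim
      simp only [Function.comp_def, hθb] at this
      exact ((tendsto_const_nhds.sub this).norm).pow _
    have h2 : Tendsto (fun k => ‖(σ.μ.map (ev (u (φ k)))).eval (ev a σ.θ)‖) atTop (𝓝 0) := by
      have := (((continuous_eval_map σ.μ).continuous.comp
        (continuous_id.prodMk (continuous_const (y := ev a σ.θ)))).norm.tendsto (c.X a)).comp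
          (htu.comp hφ.tendsto_atTop)
      simpa [Function.comp_def, σ.root_eval ha] using this
    have h3 := le_of_tendsto_of_tendsto' h1 h2 fun k => hrle (φ k)
    have : ‖ev a σ.θ - ev b' σ.θ‖ = 0 :=
      pow_eq_zero_iff hdeg.ne' |>.1 (le_antisymm h3 (by positivity))
    exact (sub_eq_zero.1 (norm_eq_zero.1 this)).symm
  have hba : b' = a := hσ (by simpa using ⟨hb'.1, hX'⟩) (by simpa using ha) hθ'
  obtain ⟨k, hk⟩ := (Metric.tendsto_nhds.1 hlim ε hε).exists
  refine ⟨b (φ k), hb _, hba ▸ hk, fun h => hune (φ k) ?_⟩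
  rw [map_mul, ← hXb (φ k), hGf _ (hb _) h, zero_mul]

end

end Vale.Agent.P274.Full.Alg
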